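import Vale.Agent.P352.BW.H368.U
import Vale.Agent.P352.BW.Md

/-!
# P352 / BW, block U (helper368): the modular unitaries and the conjugation of `IsMod` are unique
-/

set_option linter.all false
set_option autoImplicit false

namespace Vale.Agent.P352.BW.H368

open Vale.Agent.P132 (ModData)

universe u

variable {H : Type u} [NormedAddCommGroup H] [InnerProductSpace ℂ H] [CompleteSpace H]
  {M : VonNeumannAlgebra H} {ξ : H} {V : ℝ → H → H} {J : H → H}

theorem isM_of (h : IsMod M ξ V J) : IsM M ξ V J :=
  ⟨h.inn, h.add, h.cont, h.vac, h.inv, h.jinn, h.jj, h.jv, h.kms⟩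

/-- **Block U.** -/
theorem isMod_unique (E : ModData M ξ) (h : IsMod M ξ V J) : ∀ t x, V t x = E.U t x :=
  fun t x => isM_unique E (isM_of h) t x

theorem isMod_J_unique (E : ModData M ξ) (h : IsMod M ξ V J) : ∀ x, J x = E.J x :=
  fun x => isM_J_unique E (isM_of h) x

end Vale.Agent.P352.BW.H368
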