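import Vale.Agent.P352.BW.H266.Strip

/-!
# P352 / BW, block U, analytic part (helper368): functions on the strip `-1/2 ≤ Im z ≤ 0`
-/

set_option linter.all false
set_option autoImplicit false

noncomputable section

open Set Filter MeasureTheory Complex Topology
open scoped ComplexConjugate

namespace Vale.Agent.P352.BW.H368

/-- the open strip -/
def SS : Set ℂ := {z | -(1 / 2) < z.im ∧ z.im < 0}

/-- the closed strip -/
def SC : Set ℂ := {z | -(1 / 2) ≤ z.im ∧ z.im ≤ 0}

theorem SS_eq : SS = im ⁻¹' Ioo (-(1 / 2)) 0 := rfl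

theorem closure_SS : closure SS = SC := by
  rw [SS_eq, Complex.closure_preimage_im, closure_Ioo (by norm_num)]
  rfl

theorem isOpen_SS : IsOpen SS := by
  rw [SS_eq]
  exact isOpen_Ioo.preimage Complex.continuous_im

theorem SS_sub : SS ⊆ SC := fun z hz => ⟨hz.1.le, hz.2.le⟩

/-- Phragmen and Lindelof, exponential growth -/
theorem pl {f : ℂ → ℂ} (hf : DiffContOnCl ℂ f SS) {A R C : ℝ}
    (hg : ∀ z ∈ SC, ‖f z‖ ≤ A * Real.exp (R * ‖z‖)) (hR : 0 ≤ R)
    (h0 : ∀ t : ℝ, ‖f t‖ ≤ C) (h1 : ∀ t : ℝ, ‖f (t - I / 2)‖ ≤ C) :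
    ∀ z ∈ SC, ‖f z‖ ≤ C := by
  intro z hz
  have hA : 0 ≤ A := by
    have h2 := (norm_nonneg _).trans (hg 0 ⟨by norm_num, by norm_num⟩)
    by_contra h3
    push Not at h3
    have := mul_neg_of_neg_of_pos h3 (Real.exp_pos (R * ‖(0 : ℂ)‖))
    linarith
  refine PhragmenLindelof.horizontal_strip (a := -(1 / 2)) (b := 0) (by rw [← SS_eq]; exact hf)
    ?_ ?_ ?_ hz.1 hz.2
  · refine ⟨1, ?_, R + 1, ?_⟩
    · rw [lt_div_iff₀ (by norm_num)]
      have := Real.pi_gt_three
      norm_num
      linarith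
    · refine Asymptotics.IsBigO.of_bound (A * Real.exp (R + 1)) ?_
      refine Filter.mem_inf_of_right ?_
      rw [mem_principal]
      intro w hw
      have hw1 : w ∈ SC := SS_sub hw
      change ‖f w‖ ≤ A * Real.exp (R + 1) * ‖Real.exp ((R + 1) * Real.exp (1 * |w.re|))‖
      rw [Real.norm_eq_abs, abs_of_pos (Real.exp_pos _)]
      refine (hg w hw1).trans ?_
      rw [mul_assoc, ← Real.exp_add]
      refine mul_le_mul_of_nonneg_left (Real.exp_le_exp.2 ?_) hA
      have h3 : ‖w‖ ≤ |w.re| + 1 := by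
        refine (Complex.norm_le_abs_re_add_abs_im w).trans ?_
        have : |w.im| ≤ 1 := abs_le.2 ⟨by linarith [hw1.1], by linarith [hw1.2]⟩
        linarith
      have h4 : |w.re| + 1 ≤ Real.exp (1 * |w.re|) := by
        rw [one_mul]; exact Real.add_one_le_exp _
      have h5 : 0 ≤ |w.re| := abs_nonneg _
      nlinarith [mul_le_mul_of_nonneg_left h3 hR, mul_le_mul_of_nonneg_left h4 hR]
  · intro w hw
    have : w = (w.re : ℂ) - I / 2 := by
      apply Complex.ext
      · simp
      · simp [hw]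
    rw [this]
    exact h1 _
  · intro w hw
    have : w = (w.re : ℂ) := by
      apply Complex.ext
      · simp
      · simp [hw]
    rw [this]
    exact h0 _

theorem mem_real (t : ℝ) : (t : ℂ) ∈ SC := ⟨by simp, by simp⟩

theorem mem_low (t : ℝ) : (t : ℂ) - I / 2 ∈ SC := ⟨by simp, by simp⟩

/-- a bounded function is determined by its values on one side -/
theorem one_side {f : ℂ → ℂ} (hf : DiffContOnCl ℂ f SS) {C : ℝ} (hC : ∀ z ∈ SC, ‖f z‖ ≤ C)
    (h0 : ∀ t : ℝ, f t = 0) (t : ℝ) : f (t - I / 2) = 0 := by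
  have hC0 : 0 ≤ C := (norm_nonneg _).trans (hC _ (mem_real 0))
  -- interior
  have key : ∀ z ∈ SC, -(1 / 2) < z.im → f z = 0 := by
    intro z hz hz1
    have h2 : ∀ l : ℝ, 0 ≤ l → ‖f z‖ ≤ C * Real.exp (-(l * (1 / 2 + z.im))) := by
      intro l hl
      have hd : DiffContOnCl ℂ (fun w => Complex.exp (-(I * l * w)) * f w) SS :=
        (by fun_prop : Differentiable ℂ fun w : ℂ => Complex.exp (-(I * l * w))).diffContOnCl.smul hf
      have hn : ∀ w : ℂ, ‖Complex.exp (-(I * l * w))‖ = Real.exp (l * w.im) := by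
        intro w
        rw [Complex.norm_exp]
        congr 1
        simp
      have h3 := pl hd (A := C) (R := 0) (C := C * Real.exp (-(l / 2))) ?_ le_rfl ?_ ?_ z hz
      · rw [norm_mul, hn] at h3
        have h4 : ‖f z‖ = Real.exp (-(l * z.im)) * (Real.exp (l * z.im) * ‖f z‖) := by
          rw [← mul_assoc, ← Real.exp_add]; simp
        rw [h4]
        calc Real.exp (-(l * z.im)) * (Real.exp (l * z.im) * ‖f z‖)
            ≤ Real.exp (-(l * z.im)) * (C * Real.exp (-(l / 2))) :=
              mul_le_mul_of_nonneg_left h3 (Real.exp_pos _).le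
          _ = C * Real.exp (-(l * (1 / 2 + z.im))) := by
              rw [mul_left_comm, ← Real.exp_add]
              congr 2
              ring
      · intro w hw
        rw [norm_mul, hn, zero_mul, Real.exp_zero, mul_one]
        have h5 : Real.exp (l * w.im) ≤ 1 := Real.exp_le_one_iff.2 (mul_nonpos_of_nonneg_of_nonpos hl hw.2)
        calc Real.exp (l * w.im) * ‖f w‖ ≤ 1 * C :=
              mul_le_mul h5 (hC w hw) (norm_nonneg _) zero_le_one
          _ = C := one_mul _
      · intro s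
        rw [h0 s, mul_zero, norm_zero]
        positivity
      · intro s
        rw [norm_mul, hn]
        have h6 : l * ((s : ℂ) - I / 2).im = -(l / 2) := by simp; ring
        rw [h6, mul_comm]
        exact mul_le_mul_of_nonneg_right (hC _ (mem_low s)) (Real.exp_pos _).le
    have h7 : Tendsto (fun l : ℝ => C * Real.exp (-(l * (1 / 2 + z.im)))) atTop (𝓝 (C * 0)) := by
      refine Tendsto.const_mul C ?_
      exact Real.tendsto_exp_neg_atTop_nhds_zero.comp
        (tendsto_id.atTop_mul_const (by linarith : (0 : ℝ) < 1 / 2 + z.im))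
    rw [mul_zero] at h7
    have h8 : ‖f z‖ ≤ 0 := ge_of_tendsto h7 (by
      filter_upwards [eventually_ge_atTop 0] with l hl using h2 l hl)
    exact norm_le_zero_iff.1 h8
  -- boundary
  have hcont : ContinuousWithinAt f SC (t - I / 2) := by
    have := hf.continuousOn
    rw [closure_SS] at this
    exact this _ (mem_low t)
  have hmap : Tendsto (fun x : ℝ => (t : ℂ) - I / 2 + x * I) (𝓝[>] 0) (𝓝[SC] ((t : ℂ) - I / 2)) := by
    refine tendsto_nhdsWithin_iff.2 ⟨?_, ?_⟩
    · have : Continuous fun x : ℝ => (t : ℂ) - I / 2 + x * I := by fun_prop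
      have h9 := this.tendsto 0
      simp only [ofReal_zero, zero_mul, add_zero] at h9
      exact h9.mono_left nhdsWithin_le_nhds
    · have : ∀ᶠ x : ℝ in 𝓝[>] 0, x < 1 / 2 :=
        nhdsWithin_le_nhds (eventually_lt_nhds (by norm_num))
      filter_upwards [this, self_mem_nhdsWithin] with x hx hx0
      have hx0' : 0 < x := hx0
      refine ⟨?_, ?_⟩
      · simp; linarith
      · simp; linarith
  have h10 := hcont.tendsto.comp hmap
  have h11 : Tendsto (f ∘ fun x : ℝ => (t : ℂ) - I / 2 + x * I) (𝓝[>] 0) (𝓝 0) := by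
    refine tendsto_const_nhds.congr' ?_
    have : ∀ᶠ x : ℝ in 𝓝[>] 0, x < 1 / 2 :=
      nhdsWithin_le_nhds (eventually_lt_nhds (by norm_num))
    filter_upwards [this, self_mem_nhdsWithin] with x hx hx0
    have hx0' : 0 < x := hx0
    symm
    refine key _ ⟨?_, ?_⟩ ?_
    · simp; linarith
    · simp; linarith
    · simp; linarith
  exact tendsto_nhds_unique h10 h11

/-- reflection -/
theorem reflect {f : ℂ → ℂ} (hf : DiffContOnCl ℂ f SS) :
    DiffContOnCl ℂ (fun z => conj (f (-conj z))) SS := by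
  have him : ∀ z : ℂ, (-conj z).im = z.im := fun z => by simp
  constructor
  · intro z hz
    have hz' : -conj z ∈ SS := by
      refine ⟨?_, ?_⟩
      · rw [him]; exact hz.1
      · rw [him]; exact hz.2
    have h1 : DifferentiableAt ℂ f (-conj z) := hf.differentiableAt isOpen_SS hz'
    have h2 : DifferentiableAt ℂ (fun w => f (-w)) (conj z) := by
      refine DifferentiableAt.comp (f := fun w : ℂ => -w) (g := f) _ h1 ?_
      fun_prop
    have h3 := h2.conj_conj
    rw [Complex.conj_conj] at h3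
    exact h3.differentiableWithinAt
  · have hc := hf.continuousOn
    rw [closure_SS] at hc ⊢
    refine Complex.continuous_conj.comp_continuousOn (hc.comp (by fun_prop) ?_)
    intro z hz
    refine ⟨?_, ?_⟩
    · rw [him]; exact hz.1
    · rw [him]; exact hz.2

/-- a power series with coefficients in functions on the strip -/
theorem series {F : ℕ → ℂ → ℂ} {A R : ℝ} (hR : 0 ≤ R) (hF : ∀ n, DiffContOnCl ℂ (F n) SS)
    (hb : ∀ n, ∀ z ∈ SC, ‖F n z‖ ≤ A * R ^ n) :
    DiffContOnCl ℂ (fun z => ∑' n : ℕ, (-(I * z)) ^ n / (n.factorial : ℂ) * F n z) SS ∧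
      (∀ z ∈ SC, ‖∑' n : ℕ, (-(I * z)) ^ n / (n.factorial : ℂ) * F n z‖ ≤
        A * Real.exp (R * ‖z‖)) := by
  have hA : 0 ≤ A := by
    have := (norm_nonneg _).trans (hb 0 _ (mem_real 0))
    simpa using this
  have hterm : ∀ (n : ℕ) (z : ℂ), z ∈ SC →
      ‖(-(I * z)) ^ n / (n.factorial : ℂ) * F n z‖ ≤ A * ((R * ‖z‖) ^ n / (n.factorial : ℝ)) := by
    intro n z hz
    rw [norm_mul, norm_div, norm_pow, norm_neg, norm_mul, Complex.norm_I, one_mul,
      Complex.norm_natCast, mul_pow]
    calc ‖z‖ ^ n / (n.factorial : ℝ) * ‖F n z‖ ≤ ‖z‖ ^ n / (n.factorial : ℝ) * (A * R ^ n) :=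
          mul_le_mul_of_nonneg_left (hb n z hz) (by positivity)
      _ = A * (R ^ n * ‖z‖ ^ n / (n.factorial : ℝ)) := by ring
  have hsum : ∀ x : ℝ, Summable fun n : ℕ => A * (x ^ n / (n.factorial : ℝ)) := fun x =>
    (Real.summable_pow_div_factorial x).mul_left A
  have htsum : ∀ x : ℝ, ∑' n : ℕ, A * (x ^ n / (n.factorial : ℝ)) = A * Real.exp x := by
    intro x
    rw [tsum_mul_left, Real.exp_eq_exp_ℝ, NormedSpace.exp_eq_tsum_div]
  refine ⟨⟨?_, ?_⟩, ?_⟩
  · -- differentiability, locally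
    intro z hz
    have hU : IsOpen (SS ∩ Metric.ball 0 (‖z‖ + 1)) := isOpen_SS.inter Metric.isOpen_ball
    have hd := Complex.differentiableOn_tsum_of_summable_norm (U := SS ∩ Metric.ball 0 (‖z‖ + 1))
      (F := fun (n : ℕ) (z : ℂ) => (-(I * z)) ^ n / (n.factorial : ℂ) * F n z)
      (hsum (R * (‖z‖ + 1))) (fun n => ?_) hU (fun n w hw => ?_)
    · have hmem : z ∈ SS ∩ Metric.ball 0 (‖z‖ + 1) := ⟨hz, by simp⟩
      exact (hd.differentiableAt (hU.mem_nhds hmem)).differentiableWithinAt
    · refine DifferentiableOn.mul ?_ ((hF n).differentiableOn.mono inter_subset_left)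
      exact (by fun_prop : Differentiable ℂ fun z : ℂ => (-(I * z)) ^ n / (n.factorial : ℂ)).differentiableOn
    · refine (hterm n w (SS_sub hw.1)).trans (mul_le_mul_of_nonneg_left ?_ hA)
      have hw2 : ‖w‖ ≤ ‖z‖ + 1 := by
        have := hw.2
        rw [mem_ball_zero_iff] at this
        exact this.le
      gcongr
  · rw [closure_SS]
    intro z hz
    have hc : ContinuousOn (fun z => ∑' n : ℕ, (-(I * z)) ^ n / (n.factorial : ℂ) * F n z)
        (SC ∩ Metric.ball 0 (‖z‖ + 1)) := by
      refine continuousOn_tsum (fun n => ?_) (hsum (R * (‖z‖ + 1))) (fun n w hw => ?_)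
      · refine ContinuousOn.mul ?_ ?_
        · exact (by fun_prop : Continuous fun z : ℂ => (-(I * z)) ^ n / (n.factorial : ℂ)).continuousOn
        · have := (hF n).continuousOn
          rw [closure_SS] at this
          exact this.mono inter_subset_left
      · refine (hterm n w hw.1).trans (mul_le_mul_of_nonneg_left ?_ hA)
        have hw2 : ‖w‖ ≤ ‖z‖ + 1 := by
          have := hw.2
          rw [mem_ball_zero_iff] at this
          exact this.le
        gcongr
    have hmem : z ∈ SC ∩ Metric.ball 0 (‖z‖ + 1) := ⟨hz, by simp⟩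
    refine (hc z hmem).mono_of_mem_nhdsWithin ?_
    exact inter_mem_nhdsWithin SC (Metric.isOpen_ball.mem_nhds hmem.2)
  · intro z hz
    refine (tsum_of_norm_bounded ((hsum (R * ‖z‖)).hasSum) fun n => hterm n z hz).trans ?_
    rw [htsum]

/-- two functions which exchange their boundary values are constant on the real line -/
theorem cyc2 {f g : ℂ → ℂ} (hf : DiffContOnCl ℂ f SS) (hg : DiffContOnCl ℂ g SS) {C : ℝ}
    (bf : ∀ z ∈ SC, ‖f z‖ ≤ C) (bg : ∀ z ∈ SC, ‖g z‖ ≤ C)
    (hfg : ∀ t : ℝ, f (t - I / 2) = g t) (hgf : ∀ t : ℝ, g (t - I / 2) = f t) (t : ℝ) :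
    f t = f 0 := by
  have hneg : ∀ z ∈ H266.St, -z ∈ SC := by
    intro z hz
    refine ⟨?_, ?_⟩
    · rw [Complex.neg_im]; linarith [hz.2]
    · rw [Complex.neg_im]; linarith [hz.1]
  have dat : ∀ {h : ℂ → ℂ}, DiffContOnCl ℂ h SS → (∀ z ∈ SC, ‖h z‖ ≤ C) →
      H266.Dat (fun z => h (-z)) C := by
    intro h hh bh
    refine ⟨fun z h1 h2 => ?_, fun z hz h1 h2 => ?_, fun z hz => bh _ (hneg z hz)⟩
    · have h3 : -z ∈ SS := ⟨by rw [Complex.neg_im]; linarith, by rw [Complex.neg_im]; linarith⟩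
      have h4 := hh.differentiableAt isOpen_SS h3
      refine DifferentiableAt.comp (f := fun w : ℂ => -w) (g := h) _ h4 ?_
      fun_prop
    · have hc := hh.continuousOn
      rw [closure_SS] at hc
      exact (hc _ (hneg z hz)).comp (f := fun w : ℂ => -w) (by fun_prop) hneg
  have e1 : ∀ s : ℝ, s ≠ 0 → (fun z => f (-z)) (s + I / 2) = (fun z => g (-z)) s := by
    intro s _
    change f (-(s + I / 2)) = g (-s)
    have h1 : -((s : ℂ) + I / 2) = ((-s : ℝ) : ℂ) - I / 2 := by push_cast; ring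
    have h2 : -(s : ℂ) = ((-s : ℝ) : ℂ) := by push_cast; ring
    rw [h1, h2, hfg]
  have e2 : ∀ s : ℝ, s ≠ 0 → (fun z => g (-z)) (s + I / 2) = (fun z => f (-z)) s := by
    intro s _
    change g (-(s + I / 2)) = f (-s)
    have h1 : -((s : ℂ) + I / 2) = ((-s : ℝ) : ℂ) - I / 2 := by push_cast; ring
    have h2 : -(s : ℂ) = ((-s : ℝ) : ℂ) := by push_cast; ring
    rw [h1, h2, hgf]
  obtain ⟨c, hc⟩ := H266.strip (dat hf bf) (dat hg bg) e1 e2
  · have hr : ∀ s : ℝ, s ≠ 0 → f s = c := by
      intro s hs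
      have := (hc (-(s : ℂ)) ⟨by simp, by simp⟩ (by simpa using hs) (by
        intro hh
        have := congrArg Complex.im hh
        simp at this)).1
      simpa using this
    have h0 : f 0 = c := by
      have hcf := hf.continuousOn
      rw [closure_SS] at hcf
      have hw := hcf _ (mem_real 0)
      have hmap : Tendsto (fun x : ℝ => (x : ℂ)) (𝓝[>] 0) (𝓝[SC] ((0 : ℝ) : ℂ)) := by
        refine tendsto_nhdsWithin_iff.2 ⟨?_, Eventually.of_forall fun x => mem_real x⟩
        exact (Complex.continuous_ofReal.tendsto 0).mono_left nhdsWithin_le_nhds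
      have ht := hw.tendsto.comp hmap
      have ht2 : Tendsto (f ∘ fun x : ℝ => (x : ℂ)) (𝓝[>] 0) (𝓝 c) := by
        refine tendsto_const_nhds.congr' ?_
        filter_upwards [self_mem_nhdsWithin] with x hx
        exact (hr x (ne_of_gt hx)).symm
      simpa using tendsto_nhds_unique ht ht2
    rcases eq_or_ne t 0 with rfl | ht
    · simp
    · rw [hr t ht, h0]

end Vale.Agent.P352.BW.H368

end
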