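import Vale.Agent.P352.BW.H368.Str
import Vale.Agent.P352.BW.H234.Uniq
import Vale.Agent.P352.BW.T.N

/-!
# P352 / BW, block U (helper368): uniqueness of the modular unitaries in the form `IsMod`
-/

set_option linter.all false
set_option autoImplicit false

noncomputable section

open Set Filter Topology
open scoped ComplexConjugate InnerProductSpace BoundedContinuousFunction

namespace Vale.Agent.P352.BW.H368

open Vale.Agent.P132 (ModData expB)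
open Vale.Agent.P132.ModData (gdC gdE)

universe u

variable {H : Type u} [NormedAddCommGroup H] [InnerProductSpace ℂ H] [CompleteSpace H]
variable {M : VonNeumannAlgebra H} {ξ : H}

/-! ### powers times a function with compact support -/

/-- `h ↦ h^n ψ(h)` -/
def Pn (ψ : ℝ →ᵇ ℂ) (hψ : HasCompactSupport ψ) (n : ℕ) : ℝ →ᵇ ℂ :=
  gdC (fun h : ℝ => (h : ℂ) ^ n * ψ h) (by fun_prop) hψ.mul_left

/-- `h ↦ e^{ch} ψ(h)` -/
def Ec (ψ : ℝ →ᵇ ℂ) (hψ : HasCompactSupport ψ) (c : ℂ) : ℝ →ᵇ ℂ :=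
  gdC (fun h : ℝ => Complex.exp (c * h) * ψ h) (by fun_prop) hψ.mul_left

theorem Pn_apply (ψ : ℝ →ᵇ ℂ) (hψ : HasCompactSupport ψ) (n : ℕ) (h : ℝ) :
    Pn ψ hψ n h = (h : ℂ) ^ n * ψ h := rfl

theorem Ec_apply (ψ : ℝ →ᵇ ℂ) (hψ : HasCompactSupport ψ) (c : ℂ) (h : ℝ) :
    Ec ψ hψ c h = Complex.exp (c * h) * ψ h := rfl

theorem Pn_smooth {ψ : ℝ →ᵇ ℂ} (hψ : HasCompactSupport ψ) (hs : ContDiff ℝ (⊤ : ℕ∞) ψ) (n : ℕ) :
    ContDiff ℝ (⊤ : ℕ∞) (Pn ψ hψ n) := by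
  have h1 : ContDiff ℝ (⊤ : ℕ∞) fun h : ℝ => (h : ℂ) ^ n :=
    Complex.ofRealCLM.contDiff.pow n
  exact h1.mul hs

theorem Pn_compact {ψ : ℝ →ᵇ ℂ} (hψ : HasCompactSupport ψ) (n : ℕ) :
    HasCompactSupport (Pn ψ hψ n) := hψ.mul_left

theorem exists_R {ψ : ℝ →ᵇ ℂ} (hψ : HasCompactSupport ψ) :
    ∃ R : ℝ, 0 ≤ R ∧ ∀ h : ℝ, ψ h ≠ 0 → |h| ≤ R := by
  obtain ⟨R, hR⟩ := hψ.isCompact.isBounded.subset_closedBall 0
  refine ⟨|R|, abs_nonneg _, fun h hh => ?_⟩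
  have := hR (subset_tsupport _ (Function.mem_support.2 hh))
  rw [mem_closedBall_zero_iff, Real.norm_eq_abs] at this
  exact this.trans (le_abs_self R)

theorem Pn_norm {ψ : ℝ →ᵇ ℂ} (hψ : HasCompactSupport ψ) {R : ℝ} (hR : 0 ≤ R)
    (h : ∀ h : ℝ, ψ h ≠ 0 → |h| ≤ R) (n : ℕ) : ‖Pn ψ hψ n‖ ≤ R ^ n * ‖ψ‖ := by
  rw [BoundedContinuousFunction.norm_le (by positivity)]
  intro x
  rw [Pn_apply, norm_mul, norm_pow, Complex.norm_real, Real.norm_eq_abs]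
  by_cases hx : ψ x = 0
  · rw [hx, norm_zero, mul_zero]; positivity
  · have h1 := h x hx
    have h2 := ψ.norm_coe_le_norm x
    gcongr

theorem Ec_sum (ψ : ℝ →ᵇ ℂ) (hψ : HasCompactSupport ψ) (c : ℂ) :
    HasSum (fun n : ℕ => (c ^ n / (n.factorial : ℂ)) • Pn ψ hψ n) (Ec ψ hψ c) := by
  obtain ⟨R, hR, hR'⟩ := exists_R hψ
  have hs : Summable fun n : ℕ => (c ^ n / (n.factorial : ℂ)) • Pn ψ hψ n := by
    refine Summable.of_norm_bounded (g := fun n : ℕ => ‖ψ‖ * ((‖c‖ * R) ^ n / (n.factorial : ℝ)))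
      ((Real.summable_pow_div_factorial (‖c‖ * R)).mul_left _) fun n => ?_
    rw [norm_smul, norm_div, norm_pow, Complex.norm_natCast, mul_pow]
    calc ‖c‖ ^ n / (n.factorial : ℝ) * ‖Pn ψ hψ n‖
        ≤ ‖c‖ ^ n / (n.factorial : ℝ) * (R ^ n * ‖ψ‖) :=
          mul_le_mul_of_nonneg_left (Pn_norm hψ hR hR' n) (by positivity)
      _ = ‖ψ‖ * (‖c‖ ^ n * R ^ n / (n.factorial : ℝ)) := by ring
  obtain ⟨S, hS⟩ := hs
  have hSE : S = Ec ψ hψ c := by
    ext h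
    have h1 : HasSum (fun n : ℕ => (c ^ n / (n.factorial : ℂ)) * ((h : ℂ) ^ n * ψ h)) (S h) :=
      (BoundedContinuousFunction.evalCLM ℂ h).hasSum hS
    have h2 : HasSum (fun n : ℕ => (c * h) ^ n / (n.factorial : ℂ)) (Complex.exp (c * h)) := by
      rw [Complex.exp_eq_exp_ℂ]
      exact NormedSpace.expSeries_div_hasSum_exp (c * (h : ℂ))
    have h3 := h2.mul_right (ψ h)
    have h4 : (fun n : ℕ => (c * h) ^ n / (n.factorial : ℂ) * ψ h) =
        fun n : ℕ => (c ^ n / (n.factorial : ℂ)) * ((h : ℂ) ^ n * ψ h) := by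
      funext n
      rw [mul_pow]; ring
    rw [h4] at h3
    rw [Ec_apply]
    exact h1.unique h3
  rw [← hSE]
  exact hS

/-- evaluation of the functional calculus -/
def Ev (E : ModData M ξ) (v : H) : (ℝ →ᵇ ℂ) →L[ℂ] H :=
  LinearMap.mkContinuous
    { toFun := fun F => E.Th F v
      map_add' := fun F G => by rw [map_add]; rfl
      map_smul' := fun c F => by rw [map_smul]; rfl } ‖v‖
    (fun F => by
      have := E.norm_Th_apply_le F v
      rw [mul_comm]; exact this)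

theorem Ev_apply (E : ModData M ξ) (v : H) (F : ℝ →ᵇ ℂ) : Ev E v F = E.Th F v := rfl

theorem gdE_Pn (ψ : ℝ →ᵇ ℂ) (hψ : HasCompactSupport ψ) (hE : HasCompactSupport (gdE ψ hψ)) (n : ℕ) :
    gdE (Pn ψ hψ n) (Pn_compact hψ n) = Pn (gdE ψ hψ) hE n := by
  ext h
  change ((Real.exp (h / 2) : ℝ) : ℂ) * ((h : ℂ) ^ n * ψ h) =
    (h : ℂ) ^ n * (((Real.exp (h / 2) : ℝ) : ℂ) * ψ h)
  ring

theorem Ec_one (ψ : ℝ →ᵇ ℂ) (hψ : HasCompactSupport ψ) (t : ℝ) :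
    Ec ψ hψ (-(Complex.I * t)) = expB (-t) * ψ := by
  ext h
  rw [Ec_apply, BoundedContinuousFunction.mul_apply, P132.expB_apply]
  congr 2
  push_cast
  ring

theorem Ec_two (ψ : ℝ →ᵇ ℂ) (hψ : HasCompactSupport ψ) (hE : HasCompactSupport (gdE ψ hψ)) (t : ℝ) :
    Ec (gdE ψ hψ) hE (-(Complex.I * (t - Complex.I / 2))) = expB (-t) * ψ := by
  ext h
  rw [Ec_apply, BoundedContinuousFunction.mul_apply, P132.expB_apply]
  change _ * (((Real.exp (h / 2) : ℝ) : ℂ) * ψ h) = _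
  rw [← mul_assoc, Complex.ofReal_exp, ← Complex.exp_add]
  congr 2
  have h1 : Complex.I * (Complex.I / 2) = -(1 / 2) := by
    rw [← mul_div_assoc, Complex.I_mul_I]; ring
  rw [mul_sub, h1]
  push_cast
  ring

/-! ### the fields of `IsMod` -/

/-- modular unitaries and conjugation (literal copy of `BW.IsMod`) -/
structure IsM (M : VonNeumannAlgebra H) (ξ : H) (V : ℝ → H → H) (J : H → H) : Prop where
  inn : ∀ t x y, inner ℂ (V t x) (V t y) = inner ℂ x y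
  add : ∀ s t x, V (s + t) x = V s (V t x)
  cont : ∀ x, Continuous fun t => V t x
  vac : ∀ t, V t ξ = ξ
  inv : ∀ t, ∀ X ∈ M, ∃ Y ∈ M, ∀ x, Y (V t x) = V t (X x)
  jinn : ∀ x y, inner ℂ (J x) (J y) = inner ℂ y x
  jj : ∀ x, J (J x) = x
  jv : ∀ t x, J (V t x) = V t (J x)
  kms : ∀ X ∈ M, ∀ y, ∃ F : ℂ → ℂ, DiffContOnCl ℂ F {z | -(1 / 2) < z.im ∧ z.im < 0} ∧
    (∃ C, ∀ z : ℂ, -(1 / 2) ≤ z.im → z.im ≤ 0 → ‖F z‖ ≤ C) ∧
    ∀ t : ℝ, F t = inner ℂ y (V t (X ξ)) ∧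
      F (t - Complex.I / 2) = inner ℂ y (V t (J (star X ξ)))

section lin

variable {f : H → H}

theorem inn_add (hf : ∀ x y, ⟪f x, f y⟫_ℂ = ⟪x, y⟫_ℂ) (x y : H) : f (x + y) = f x + f y := by
  rw [← sub_eq_zero, ← inner_self_eq_zero (𝕜 := ℂ)]
  simp only [inner_sub_left, inner_sub_right, inner_add_left, inner_add_right, hf]
  ring

theorem inn_smul (hf : ∀ x y, ⟪f x, f y⟫_ℂ = ⟪x, y⟫_ℂ) (c : ℂ) (x : H) : f (c • x) = c • f x := by
  rw [← sub_eq_zero, ← inner_self_eq_zero (𝕜 := ℂ)]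
  simp only [inner_sub_left, inner_sub_right, inner_smul_left, inner_smul_right, hf]
  ring

theorem anti_add (hf : ∀ x y, ⟪f x, f y⟫_ℂ = ⟪y, x⟫_ℂ) (x y : H) : f (x + y) = f x + f y := by
  rw [← sub_eq_zero, ← inner_self_eq_zero (𝕜 := ℂ)]
  simp only [inner_sub_left, inner_sub_right, inner_add_left, inner_add_right, hf]
  ring

theorem anti_smul (hf : ∀ x y, ⟪f x, f y⟫_ℂ = ⟪y, x⟫_ℂ) (c : ℂ) (x : H) :
    f (c • x) = conj c • f x := by
  rw [← sub_eq_zero, ← inner_self_eq_zero (𝕜 := ℂ)]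
  simp only [inner_sub_left, inner_sub_right, inner_smul_left, inner_smul_right, hf,
    Complex.conj_conj]
  ring

theorem nrm_of (hf : ∀ x, ⟪f x, f x⟫_ℂ = ⟪x, x⟫_ℂ) (x : H) : ‖f x‖ = ‖x‖ := by
  rw [@norm_eq_sqrt_re_inner ℂ, @norm_eq_sqrt_re_inner ℂ, hf]

end lin

variable {V : ℝ → H → H} {J : H → H}

theorem IsM.zero (h : IsM M ξ V J) (x : H) : V 0 x = x := by
  have h1 : V 0 (V 0 x) = V 0 x := by rw [← h.add, add_zero]
  have h2 : V 0 (V 0 x - x) = 0 := by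
    rw [sub_eq_add_neg, inn_add (h.inn 0), ← neg_one_smul ℂ x, inn_smul (h.inn 0), h1]
    simp
  have h3 := nrm_of (fun x => h.inn 0 x x) (V 0 x - x)
  rw [h2, norm_zero] at h3
  exact sub_eq_zero.1 (norm_eq_zero.1 h3.symm)

theorem IsM.neg (h : IsM M ξ V J) (t : ℝ) (x : H) : V (-t) (V t x) = x := by
  rw [← h.add, neg_add_cancel, h.zero]

theorem IsM.neg' (h : IsM M ξ V J) (t : ℝ) (x : H) : V t (V (-t) x) = x := by
  rw [← h.add, add_neg_cancel, h.zero]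

/-- the unitaries -/
def VL (h : IsM M ξ V J) (t : ℝ) : H ≃ₗᵢ[ℂ] H where
  toFun := V t
  invFun := V (-t)
  map_add' := inn_add (h.inn t)
  map_smul' := inn_smul (h.inn t)
  left_inv := h.neg t
  right_inv := h.neg' t
  norm_map' := nrm_of fun x => h.inn t x x

theorem VL_apply (h : IsM M ξ V J) (t : ℝ) (x : H) : VL h t x = V t x := rfl

theorem sym2 (h : IsM M ξ V J) (t : ℝ) : ∀ Y ∈ M, ∃ X ∈ M, ∀ z, Y (VL h t z) = VL h t (X z) := by
  intro Y hY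
  obtain ⟨X, hX, h1⟩ := h.inv (-t) Y hY
  refine ⟨X, hX, fun z => ?_⟩
  have h2 := h1 (V t z)
  rw [h.neg] at h2
  rw [VL_apply, VL_apply, h2, h.neg']

theorem comm_U (E : ModData M ξ) (h : IsM M ξ V J) (t s : ℝ) (z : H) :
    V t (E.U s z) = E.U s (V t z) :=
  H234.U_nat E E (VL h t) (h.vac t) (h.inv t) (sym2 h t) s z

theorem comm_J (E : ModData M ξ) (h : IsM M ξ V J) (t : ℝ) (z : H) :
    V t (E.J z) = E.J (V t z) :=
  T.nat_J E E (VL h t) (h.vac t) (h.inv t) (fun s z => comm_U E h t s z) z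

/-- `J J_M` -/
def UJ (E : ModData M ξ) (h : IsM M ξ V J) : H →ₗᵢ[ℂ] H where
  toFun := fun z => J (E.J z)
  map_add' := fun x y => by rw [map_add, anti_add h.jinn]
  map_smul' := fun c x => by
    rw [map_smulₛₗ, anti_smul h.jinn]
    simp
  norm_map' := fun x => by
    change ‖J (E.J x)‖ = ‖x‖
    rw [nrm_of (fun x => h.jinn x x), E.J.norm_map]

theorem UJ_apply (E : ModData M ξ) (h : IsM M ξ V J) (z : H) : UJ E h z = J (E.J z) := rfl

theorem inner_UJ (E : ModData M ξ) (h : IsM M ξ V J) (y z : H) :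
    ⟪y, J (E.J z)⟫_ℂ = ⟪E.J (J y), z⟫_ℂ := by
  have h1 : ⟪y, J (E.J z)⟫_ℂ = ⟪E.J z, J y⟫_ℂ := by
    have := h.jinn (J y) (E.J z)
    rw [h.jj] at this
    exact this
  rw [h1, E.inner_J_left]

theorem norm_sg (E : ModData M ξ) (h : IsM M ξ V J) (y : H) : ‖E.J (J y)‖ = ‖y‖ := by
  rw [E.J.norm_map, nrm_of (fun x => h.jinn x x)]

theorem comm_UJ (E : ModData M ξ) (h : IsM M ξ V J) (t : ℝ) (z : H) :
    V t (J (E.J z)) = J (E.J (V t z)) := by
  rw [← h.jv, comm_J E h]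

/-! ### the function on the strip -/

theorem strip_fun (E : ModData M ξ) (h : IsM M ξ V J) {X : H →L[ℂ] H} (hX : X ∈ M)
    {ψ : ℝ →ᵇ ℂ} (hs : ContDiff ℝ (⊤ : ℕ∞) ψ) (hψ : HasCompactSupport ψ) (y : H) :
    ∃ f : ℂ → ℂ, DiffContOnCl ℂ f SS ∧
      (∀ z ∈ SC, ‖f z‖ ≤ ‖y‖ * ‖E.Th ψ (X ξ)‖) ∧
      (∀ t : ℝ, f t = ⟪y, V t (E.U (-t) (E.Th ψ (X ξ)))⟫_ℂ) ∧
      ∀ t : ℝ, f (t - Complex.I / 2) = ⟪E.J (J y), V t (E.U (-t) (E.Th ψ (X ξ)))⟫_ℂ := by
  have hE : HasCompactSupport (gdE ψ hψ) := hψ.mul_left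
  obtain ⟨R, hR, hR'⟩ := exists_R hψ
  have hRE : ∀ x : ℝ, gdE ψ hψ x ≠ 0 → |x| ≤ R := by
    intro x hx
    refine hR' x fun h0 => hx ?_
    change ((Real.exp (x / 2) : ℝ) : ℂ) * ψ x = 0
    rw [h0, mul_zero]
  choose Xn hXn hXx using fun n : ℕ => E.smooth_mem hX (Pn ψ hψ n) (Pn_smooth hψ hs n)
    (Pn_compact hψ n)
  have hstar : ∀ n, J (star (Xn n) ξ) = UJ E h (E.Th (Pn (gdE ψ hψ) hE n) (X ξ)) := by
    intro n
    have h1 := E.gd_J_star (hXn n) (Pn ψ hψ n) (Pn_compact hψ n) (hXx n)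
    rw [gdE_Pn ψ hψ hE] at h1
    rw [UJ_apply, ← h1, E.J_J]
  choose F hF1 hF2 hF3 using fun n : ℕ => h.kms (Xn n) (hXn n) y
  -- a common bound
  obtain ⟨A, hA⟩ : ∃ A : ℝ, A = ‖y‖ * ((‖ψ‖ + ‖gdE ψ hψ‖) * ‖X ξ‖) := ⟨_, rfl⟩
  have hb : ∀ n, ∀ z ∈ SC, ‖F n z‖ ≤ A * R ^ n := by
    intro n
    obtain ⟨C, hC⟩ := hF2 n
    refine pl (hF1 n) (A := C) (R := 0) (fun z hz => ?_) le_rfl (fun t => ?_) fun t => ?_
    · rw [zero_mul, Real.exp_zero, mul_one]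
      exact hC z hz.1 hz.2
    · rw [(hF3 n t).1]
      refine (norm_inner_le_norm _ _).trans ?_
      rw [nrm_of (fun x => h.inn t x x), hXx, hA, mul_assoc]
      refine mul_le_mul_of_nonneg_left ?_ (norm_nonneg _)
      refine (E.norm_Th_apply_le _ _).trans ?_
      calc ‖Pn ψ hψ n‖ * ‖X ξ‖ ≤ (R ^ n * ‖ψ‖) * ‖X ξ‖ :=
            mul_le_mul_of_nonneg_right (Pn_norm hψ hR hR' n) (norm_nonneg _)
        _ ≤ (R ^ n * (‖ψ‖ + ‖gdE ψ hψ‖)) * ‖X ξ‖ := by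
            refine mul_le_mul_of_nonneg_right (mul_le_mul_of_nonneg_left ?_ (by positivity))
              (norm_nonneg _)
            linarith [norm_nonneg (gdE ψ hψ)]
        _ = (‖ψ‖ + ‖gdE ψ hψ‖) * ‖X ξ‖ * R ^ n := by ring
    · rw [(hF3 n t).2]
      refine (norm_inner_le_norm _ _).trans ?_
      rw [nrm_of (fun x => h.inn t x x), hstar, (UJ E h).norm_map, hA, mul_assoc]
      refine mul_le_mul_of_nonneg_left ?_ (norm_nonneg _)
      refine (E.norm_Th_apply_le _ _).trans ?_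
      calc ‖Pn (gdE ψ hψ) hE n‖ * ‖X ξ‖ ≤ (R ^ n * ‖gdE ψ hψ‖) * ‖X ξ‖ :=
            mul_le_mul_of_nonneg_right (Pn_norm hE hR hRE n) (norm_nonneg _)
        _ ≤ (R ^ n * (‖ψ‖ + ‖gdE ψ hψ‖)) * ‖X ξ‖ := by
            refine mul_le_mul_of_nonneg_right (mul_le_mul_of_nonneg_left ?_ (by positivity))
              (norm_nonneg _)
            linarith [norm_nonneg ψ]
        _ = (‖ψ‖ + ‖gdE ψ hψ‖) * ‖X ξ‖ * R ^ n := by ring
  obtain ⟨hd, hgr⟩ := series hR hF1 hb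
  -- boundary values
  have hlow : ∀ t : ℝ, ∑' n : ℕ, (-(Complex.I * (t : ℂ))) ^ n / (n.factorial : ℂ) * F n t =
      ⟪y, V t (E.U (-t) (E.Th ψ (X ξ)))⟫_ℂ := by
    intro t
    have h1 := (Ev E (X ξ)).hasSum (Ec_sum ψ hψ (-(Complex.I * (t : ℂ))))
    have h2 := ((innerSL ℂ y).comp
      ((VL h t).toContinuousLinearEquiv : H →L[ℂ] H)).hasSum h1
    refine HasSum.tsum_eq ?_
    have e1 : ((innerSL ℂ y).comp ((VL h t).toContinuousLinearEquiv : H →L[ℂ] H))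
        (Ev E (X ξ) (Ec ψ hψ (-(Complex.I * (t : ℂ))))) =
        ⟪y, V t (E.U (-t) (E.Th ψ (X ξ)))⟫_ℂ := by
      change ⟪y, V t (E.Th (Ec ψ hψ (-(Complex.I * (t : ℂ)))) (X ξ))⟫_ℂ = _
      rw [Ec_one, E.gd_Th_mul]
      rfl
    rw [e1] at h2
    have e2 : ∀ n : ℕ, (-(Complex.I * (t : ℂ))) ^ n / (n.factorial : ℂ) * F n t =
        ((innerSL ℂ y).comp ((VL h t).toContinuousLinearEquiv : H →L[ℂ] H))
          (Ev E (X ξ) (((-(Complex.I * (t : ℂ))) ^ n / (n.factorial : ℂ)) • Pn ψ hψ n)) := by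
      intro n
      rw [map_smul, map_smul, smul_eq_mul, (hF3 n t).1, hXx]
      rfl
    rw [funext e2]
    exact h2
  have hupp : ∀ t : ℝ, ∑' n : ℕ, (-(Complex.I * ((t : ℂ) - Complex.I / 2))) ^ n /
      (n.factorial : ℂ) * F n (t - Complex.I / 2) =
      ⟪E.J (J y), V t (E.U (-t) (E.Th ψ (X ξ)))⟫_ℂ := by
    intro t
    have h1 := (Ev E (X ξ)).hasSum (Ec_sum (gdE ψ hψ) hE (-(Complex.I * ((t : ℂ) - Complex.I / 2))))
    have h2 := (((innerSL ℂ y).comp ((VL h t).toContinuousLinearEquiv : H →L[ℂ] H)).comp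
      (UJ E h).toContinuousLinearMap).hasSum h1
    refine HasSum.tsum_eq ?_
    have e1 : (((innerSL ℂ y).comp ((VL h t).toContinuousLinearEquiv : H →L[ℂ] H)).comp
      (UJ E h).toContinuousLinearMap)
        (Ev E (X ξ) (Ec (gdE ψ hψ) hE (-(Complex.I * ((t : ℂ) - Complex.I / 2))))) =
        ⟪E.J (J y), V t (E.U (-t) (E.Th ψ (X ξ)))⟫_ℂ := by
      change ⟪y, V t (J (E.J (E.Th (Ec (gdE ψ hψ) hE
        (-(Complex.I * ((t : ℂ) - Complex.I / 2)))) (X ξ))))⟫_ℂ = _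
      rw [Ec_two, E.gd_Th_mul, comm_UJ E h, inner_UJ E h]
      rfl
    rw [e1] at h2
    have e2 : ∀ n : ℕ, (-(Complex.I * ((t : ℂ) - Complex.I / 2))) ^ n / (n.factorial : ℂ) *
        F n (t - Complex.I / 2) =
        (((innerSL ℂ y).comp ((VL h t).toContinuousLinearEquiv : H →L[ℂ] H)).comp
          (UJ E h).toContinuousLinearMap)
          (Ev E (X ξ) (((-(Complex.I * ((t : ℂ) - Complex.I / 2))) ^ n / (n.factorial : ℂ)) •
            Pn (gdE ψ hψ) hE n)) := by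
      intro n
      rw [map_smul, map_smul, smul_eq_mul, (hF3 n t).2, hstar]
      rfl
    rw [funext e2]
    exact h2
  refine ⟨_, hd, ?_, hlow, hupp⟩
  refine pl hd hgr hR (fun t => ?_) fun t => ?_
  · rw [hlow]
    refine (norm_inner_le_norm _ _).trans ?_
    rw [nrm_of (fun x => h.inn t x x), nrm_of (fun x => E.inner_U_U (-t) x x)]
  · rw [hupp]
    refine (norm_inner_le_norm _ _).trans ?_
    rw [nrm_of (fun x => h.inn t x x), nrm_of (fun x => E.inner_U_U (-t) x x), norm_sg E h]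

/-! ### self-adjointness -/

/-- vectors in the domain of everything -/
def KK (E : ModData M ξ) : Set H :=
  {k | ∃ X ∈ M, ∃ ψ : ℝ →ᵇ ℂ, ContDiff ℝ (⊤ : ℕ∞) ψ ∧ HasCompactSupport ψ ∧ k = E.Th ψ (X ξ)}

theorem dense_KK (E : ModData M ξ) : Dense (KK E) := by
  have h1 : {ζ : H | ∃ a ∈ M, a ξ = ζ} ⊆ closure (KK E) := by
    rintro _ ⟨a, ha, rfl⟩
    obtain ⟨χ, c1, c2, c3, c4, c5⟩ := H234.exists_chi
    refine mem_closure_of_tendsto (H234.tendsto_chi E c3 c5 (a ξ))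
      (Eventually.of_forall fun n => ?_)
    exact ⟨a, ha, χ n, c1 n, c2 n, rfl⟩
  intro z
  have h2 := closure_minimal h1 isClosed_closure
  exact h2 (E.cyc z)

theorem symm_KK (E : ModData M ξ) (h : IsM M ξ V J) {k k' : H} (hk : k ∈ KK E) (hk' : k' ∈ KK E) :
    ⟪E.J (J k'), k⟫_ℂ = ⟪k', E.J (J k)⟫_ℂ := by
  obtain ⟨X, hX, ψ, hs, hψ, rfl⟩ := hk
  obtain ⟨X', hX', ψ', hs', hψ', rfl⟩ := hk'
  obtain ⟨f, f1, f2, f3, f4⟩ := strip_fun E h hX hs hψ (E.Th ψ' (X' ξ))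
  obtain ⟨g, g1, g2, g3, g4⟩ := strip_fun E h hX' hs' hψ' (E.Th ψ (X ξ))
  obtain ⟨k, hk⟩ : ∃ k, k = E.Th ψ (X ξ) := ⟨_, rfl⟩
  obtain ⟨k', hk'⟩ : ∃ k, k = E.Th ψ' (X' ξ) := ⟨_, rfl⟩
  rw [← hk, ← hk'] at f2 f3 f4 g2 g3 g4
  rw [← hk, ← hk']
  have him : ∀ z : ℂ, (-conj z).im = z.im := fun z => by simp
  have hmem : ∀ z ∈ SC, -conj z ∈ SC := by
    intro z hz
    refine ⟨?_, ?_⟩
    · rw [him]; exact hz.1
    · rw [him]; exact hz.2
  have hd : DiffContOnCl ℂ (fun z => f z - conj (g (-conj z))) SS := f1.sub (reflect g1)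
  have hb : ∀ z ∈ SC, ‖f z - conj (g (-conj z))‖ ≤ ‖k'‖ * ‖k‖ + ‖k‖ * ‖k'‖ := by
    intro z hz
    refine (norm_sub_le _ _).trans (add_le_add (f2 z hz) ?_)
    rw [RCLike.norm_conj]
    exact g2 _ (hmem z hz)
  have h0 : ∀ t : ℝ, (fun z => f z - conj (g (-conj z))) (t : ℂ) = 0 := by
    intro t
    change f t - conj (g (-conj (t : ℂ))) = 0
    have e1 : -conj (t : ℂ) = ((-t : ℝ) : ℂ) := by rw [Complex.conj_ofReal]; push_cast; rfl
    rw [e1, g3, f3, inner_conj_symm, sub_eq_zero, neg_neg]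
    -- move the unitaries
    have e2 : ⟪V (-t) (E.U t k'), k⟫_ℂ = ⟪E.U t k', V t k⟫_ℂ := by
      have := h.inn t (V (-t) (E.U t k')) k
      rw [h.neg'] at this
      exact this.symm
    have e3 : ⟪E.U t k', V t k⟫_ℂ = ⟪k', E.U (-t) (V t k)⟫_ℂ := by
      have := E.inner_U_U (-t) (E.U t k') (V t k)
      rw [E.U_neg_apply] at this
      exact this.symm
    rw [e2, e3, comm_U E h]
  have h1 := one_side hd hb h0 0
  have h2 : f (((0 : ℝ) : ℂ) - Complex.I / 2) -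
      conj (g (-conj (((0 : ℝ) : ℂ) - Complex.I / 2))) = 0 := h1
  have e4 : -conj (((0 : ℝ) : ℂ) - Complex.I / 2) = ((0 : ℝ) : ℂ) - Complex.I / 2 := by
    apply Complex.ext
    · rw [Complex.neg_re, Complex.conj_re]
      have : (((0 : ℝ) : ℂ) - Complex.I / 2).re = 0 := by simp
      rw [this, neg_zero]
    · rw [Complex.neg_im, Complex.conj_im, neg_neg]
  rw [e4, f4, g4, inner_conj_symm, sub_eq_zero, h.zero, h.zero] at h2
  have e5 : ∀ z : H, E.U (-0) z = z := by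
    intro z
    have h5 := E.U_neg_apply 0 z
    have h6 : E.U (-0) z = E.U (-0) (E.U (-0) z) := by
      rw [← E.U_add_apply]; simp
    rw [neg_zero] at *
    rw [h5] at h6
    exact h6.trans rfl
  rw [e5, e5] at h2
  exact h2

theorem symm_all (E : ModData M ξ) (h : IsM M ξ V J) (x y : H) :
    ⟪E.J (J x), y⟫_ℂ = ⟪x, E.J (J y)⟫_ℂ := by
  have hJc : Continuous J := by
    have h1 : Isometry J := by
      refine Isometry.of_dist_eq fun a b => ?_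
      rw [dist_eq_norm, dist_eq_norm]
      have h2 : J a - J b = J (a - b) := by
        rw [sub_eq_add_neg, sub_eq_add_neg, anti_add h.jinn, ← neg_one_smul ℂ b,
          anti_smul h.jinn]
        simp
      rw [h2, nrm_of (fun x => h.jinn x x)]
    exact h1.continuous
  have hs : Continuous fun z => E.J (J z) := E.J.continuous.comp hJc
  have step1 : ∀ k' ∈ KK E, ∀ y, ⟪E.J (J k'), y⟫_ℂ = ⟪k', E.J (J y)⟫_ℂ := by
    intro k' hk' y
    have hcl : IsClosed {y : H | ⟪E.J (J k'), y⟫_ℂ = ⟪k', E.J (J y)⟫_ℂ} :=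
      isClosed_eq (continuous_const.inner continuous_id) (continuous_const.inner hs)
    exact closure_minimal (fun k hk => symm_KK E h hk hk') hcl (dense_KK E y)
  have hcl : IsClosed {x : H | ⟪E.J (J x), y⟫_ℂ = ⟪x, E.J (J y)⟫_ℂ} :=
    isClosed_eq (hs.inner continuous_const) (continuous_id.inner continuous_const)
  exact closure_minimal (fun k hk => step1 k hk y) hcl (dense_KK E x)

theorem invol (E : ModData M ξ) (h : IsM M ξ V J) (y : H) : E.J (J (E.J (J y))) = y := by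
  refine ext_inner_right ℂ fun z => ?_
  rw [symm_all E h, E.inner_J_J, h.jinn]

/-- **Uniqueness of the modular unitaries.** -/
theorem isM_unique (E : ModData M ξ) (h : IsM M ξ V J) (t : ℝ) (x : H) : V t x = E.U t x := by
  have e5 : ∀ z : H, E.U 0 z = z := by
    intro z
    have h5 := E.U_neg_apply 0 z
    rw [neg_zero, ← E.U_add_apply, add_zero] at h5
    exact h5
  have key : ∀ k ∈ KK E, V t (E.U (-t) k) = k := by
    rintro k ⟨X, hX, ψ, hs, hψ, hk⟩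
    refine ext_inner_left ℂ fun y => ?_
    obtain ⟨f, f1, f2, f3, f4⟩ := strip_fun E h hX hs hψ y
    obtain ⟨g, g1, g2, g3, g4⟩ := strip_fun E h hX hs hψ (E.J (J y))
    rw [← hk] at f2 f3 f4 g2 g3 g4
    rw [norm_sg E h] at g2
    have h1 := cyc2 f1 g1 f2 g2 (fun s => by rw [f4, g3]) (fun s => by rw [g4, f3, invol E h]) t
    have h2 : f 0 = ⟪y, V 0 (E.U (-0) k)⟫_ℂ := by
      have := f3 0
      rwa [Complex.ofReal_zero] at this
    rw [f3, h2, neg_zero, e5, h.zero] at h1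
    exact h1
  have hcl : IsClosed {k : H | V t (E.U (-t) k) = k} := by
    refine isClosed_eq ?_ continuous_id
    have : Continuous fun k => VL h t (E.U (-t) k) := by fun_prop
    exact this
  have h3 : ∀ k, V t (E.U (-t) k) = k := fun k => closure_minimal key hcl (dense_KK E k)
  have h4 := h3 (E.U t x)
  rw [E.U_neg_apply] at h4
  exact h4

/-- **Uniqueness of the modular conjugation.** -/
theorem isM_J_unique (E : ModData M ξ) (h : IsM M ξ V J) (x : H) : J x = E.J x := by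
  have e5 : ∀ z : H, E.U 0 z = z := by
    intro z
    have h5 := E.U_neg_apply 0 z
    rw [neg_zero, ← E.U_add_apply, add_zero] at h5
    exact h5
  have key : ∀ y : H, E.J (J y) = y := by
    intro y
    refine ext_inner_right ℂ fun z => ?_
    have hcl : IsClosed {z : H | ⟪E.J (J y), z⟫_ℂ = ⟪y, z⟫_ℂ} :=
      isClosed_eq (by fun_prop) (by fun_prop)
    refine closure_minimal ?_ hcl (dense_KK E z)
    rintro k ⟨X, hX, ψ, hs, hψ, hk⟩
    obtain ⟨f, f1, f2, f3, f4⟩ := strip_fun E h hX hs hψ y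
    rw [← hk] at f2 f3 f4
    have h1 : ∀ t : ℝ, f t = ⟪y, k⟫_ℂ := by
      intro t
      rw [f3, isM_unique E h, E.U_apply_neg]
    have h2 := one_side (f := fun z => f z - ⟪y, k⟫_ℂ)
      (f1.sub diffContOnCl_const) (C := ‖y‖ * ‖k‖ + ‖⟪y, k⟫_ℂ‖)
      (fun z hz => (norm_sub_le _ _).trans (add_le_add (f2 z hz) le_rfl))
      (fun t => by change f t - _ = 0; rw [h1, sub_self]) 0
    have h3 : f (((0 : ℝ) : ℂ) - Complex.I / 2) - ⟪y, k⟫_ℂ = 0 := h2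
    rw [f4, isM_unique E h, E.U_apply_neg, sub_eq_zero] at h3
    exact h3
  rw [← E.J_J (J x), key x]

end Vale.Agent.P352.BW.H368

end
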